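import Vale.Agent.P249.Final

namespace Vale.Agent.Results.P249.Main

open Vale.Agent.P249 Filter Asymptotics

universe u

theorem result (p D : ℝ) (hp : 1 < p) (hD : 1 < D) :
    (∀ n : ℕ, 2 ≤ n → Embeds.{u} p D n (dimP.{u} p D n)) ∧
    (∀ γ : ℝ, max (1 / 2) (1 / p) < γ → ∃ C : ℝ, ∀ n : ℕ, 2 ≤ n →
      (dimP.{u} p D n : ℝ) ≤ Real.exp (C * Real.log n ^ γ)) ∧
    (∀ η : ℝ, 0 < η →
      (fun n : ℕ => (dimP.{u} p D n : ℝ)) =o[atTop] fun n : ℕ => (n : ℝ) ^ η) ∧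
    (fun n : ℕ => (dimP.{u} p D n : ℝ)) =o[atTop] fun n : ℕ => (n : ℝ) := by
  refine ⟨fun n hn => dimP_spec hp hD (by omega), fun γ h => ?_,
    fun η hη => dimP_isLittleO hp hD hη, ?_⟩
  · obtain ⟨C, _, hC⟩ := dimP_le.{u} hp hD h
    exact ⟨C, hC⟩
  · simpa using dimP_isLittleO.{u} hp hD one_pos

end Vale.Agent.Results.P249.Main
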